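import Mathlib

/-! Sets of positive integers with nondecreasing consecutive gaps: if the sum of reciprocals
diverges, the set contains arithmetic progressions of every length (even among consecutive
elements); quantitatively, a set of this kind without `m + 2` consecutive elements in arithmetic
progression satisfies `n (n + 1) ≤ 2 m a_n`. -/

namespace Vale.Agent.Results.P057.ConvexSets

theorem quant (a : ℕ → ℕ) (hmono : StrictMono a)
    (hconv : ∀ n, a (n + 1) - a n ≤ a (n + 2) - a (n + 1)) (m : ℕ)
    (H : ∀ n d : ℕ, 0 < d → ∃ i < m + 2, a (n + i) ≠ a n + i * d) :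
    ∀ n, n * (n + 1) ≤ 2 * m * a n := by
  set g : ℕ → ℕ := fun n => a (n + 1) - a n with hg
  have hstep : ∀ n, a (n + 1) = a n + g n := by
    intro n
    have : a n < a (n + 1) := hmono (Nat.lt_succ_self n)
    simp only [hg]
    omega
  have hgpos : ∀ n, 0 < g n := by
    intro n
    have : a n < a (n + 1) := hmono (Nat.lt_succ_self n)
    simp only [hg]
    omega
  have hgmono : Monotone g := monotone_nat_of_le_succ (fun n => hconv n)
  have h1 : ∀ n, g n + 1 ≤ g (n + m) := by
    intro n
    by_contra hlt
    have hle : g (n + m) ≤ g n := by omega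
    have heq : ∀ j, j ≤ m → g (n + j) = g n := by
      intro j hj
      have h1 : g n ≤ g (n + j) := hgmono (by omega)
      have h2 : g (n + j) ≤ g (n + m) := hgmono (by omega)
      omega
    have hap : ∀ i, i ≤ m + 1 → a (n + i) = a n + i * g n := by
      intro i
      induction i with
      | zero => intro _; simp
      | succ i ih =>
        intro hi
        have e1 := ih (by omega)
        have e2 := hstep (n + i)
        have e3 := heq i (by omega)
        have : n + (i + 1) = n + i + 1 := by ring
        rw [this, e2, e1, e3]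
        ring
    obtain ⟨i, hi, hne⟩ := H n (g n) (hgpos n)
    exact hne (hap i (by omega))
  have hm : 0 < m := by
    rcases Nat.eq_zero_or_pos m with h | h
    · have := h1 0
      subst h
      simp at this
    · exact h
  have h3 : ∀ n, n / m + 1 ≤ g n := by
    intro n
    induction n using Nat.strong_induction_on with
    | _ n ih =>
      rcases Nat.lt_or_ge n m with hlt | hge
      · rw [Nat.div_eq_of_lt hlt]
        exact hgpos n
      · obtain ⟨n', rfl⟩ := Nat.exists_eq_add_of_le' hge
        have e1 := ih n' (by omega)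
        have e2 := h1 n'
        rw [Nat.add_div_right n' hm]
        omega
  intro n
  induction n with
  | zero => simp
  | succ n ih =>
    have e1 := hstep n
    have e2 := h3 n
    have e3 : n + 1 ≤ m * (n / m + 1) := by
      have := Nat.div_add_mod n m
      have h5 := Nat.mod_lt n hm
      nlinarith
    have e4 : m * (n / m + 1) ≤ m * g n := Nat.mul_le_mul_left m e2
    rw [e1]
    nlinarith

theorem result (a : ℕ → ℕ) (h0 : 0 < a 0) (hmono : StrictMono a)
    (hconv : ∀ n, a (n + 1) - a n ≤ a (n + 2) - a (n + 1)) :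
    (∀ m : ℕ, (∀ n d : ℕ, 0 < d → ∃ i < m + 2, a (n + i) ≠ a n + i * d) →
      ∀ n, n * (n + 1) ≤ 2 * m * a n) ∧
    (¬ Summable (fun n => (1 : ℝ) / a n) →
      ∀ k : ℕ, ∃ n d : ℕ, 0 < d ∧ ∀ i < k, a (n + i) = a n + i * d) := by
  refine ⟨fun m H => quant a hmono hconv m H, ?_⟩
  intro hdiv k
  by_contra Hc
  apply hdiv
  have H : ∀ n d : ℕ, 0 < d → ∃ i < k + 2, a (n + i) ≠ a n + i * d := by
    intro n d hd
    by_contra hno
    apply Hc
    refine ⟨n, d, hd, fun i hi => ?_⟩
    by_contra hne
    exact hno ⟨i, by omega, hne⟩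
  have hq := quant a hmono hconv k H
  rw [← summable_nat_add_iff 1]
  have hs : Summable (fun n : ℕ => (2 * k : ℝ) * (1 / ((n + 1 : ℕ) : ℝ) ^ 2)) := by
    apply Summable.mul_left
    exact (summable_nat_add_iff 1).mpr (Real.summable_one_div_nat_pow.mpr (by norm_num))
  refine Summable.of_nonneg_of_le (fun n => by positivity) (fun n => ?_) hs
  have hpos : 0 < a (n + 1) := lt_of_lt_of_le h0 (hmono.monotone (Nat.zero_le _))
  have hq1 := hq (n + 1)
  have hq2 : (((n + 1 : ℕ) : ℝ)) * (((n + 1 : ℕ) : ℝ) + 1) ≤ 2 * k * a (n + 1) := by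
    exact_mod_cast hq1
  have hposR : (0 : ℝ) < a (n + 1) := by exact_mod_cast hpos
  have hn1 : (0 : ℝ) < ((n + 1 : ℕ) : ℝ) := by positivity
  rw [mul_one_div, div_le_div_iff₀ hposR (by positivity)]
  nlinarith

end Vale.Agent.Results.P057.ConvexSets
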